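import Mathlib

/-! Row 51 (k-sets), B1/C1: linear bound for x-monotone drawings in which only edges sharing an
endpoint may cross. -/

set_option autoImplicit false

namespace Crest.Agent.R051.C1

variable {α : Type*}

/-- the drawing hypotheses -/
structure Drawing (X : Finset α) (x y : α → ℝ) (F : Finset (α × α)) (g : α × α → ℝ → ℝ) : Prop where
  inj : ∀ a ∈ X, ∀ b ∈ X, x a = x b → a = b
  left_mem : ∀ e ∈ F, e.1 ∈ X
  right_mem : ∀ e ∈ F, e.2 ∈ X
  lt : ∀ e ∈ F, x e.1 < x e.2
  g_left : ∀ e ∈ F, g e (x e.1) = y e.1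
  g_right : ∀ e ∈ F, g e (x e.2) = y e.2
  g_ne : ∀ e ∈ F, ∀ z ∈ X, x e.1 < x z → x z < x e.2 → g e (x z) ≠ y z
  /-- no sign change for disjoint edges -/
  nsc : ∀ e ∈ F, ∀ f ∈ F, e.1 ≠ f.1 → e.1 ≠ f.2 → e.2 ≠ f.1 → e.2 ≠ f.2 →
    ∀ s t : ℝ, x e.1 ≤ s → x f.1 ≤ s → s ≤ x e.2 → s ≤ x f.2 →
      x e.1 ≤ t → x f.1 ≤ t → t ≤ x e.2 → t ≤ x f.2 → g e s < g f s → g f t < g e t → False

variable {X : Finset α} {x y : α → ℝ} {F : Finset (α × α)} {g : α × α → ℝ → ℝ}

theorem Drawing.subset (h : Drawing X x y F g) {F' : Finset (α × α)} (hF : F' ⊆ F) :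
    Drawing X x y F' g where
  inj := h.inj
  left_mem e he := h.left_mem e (hF he)
  right_mem e he := h.right_mem e (hF he)
  lt e he := h.lt e (hF he)
  g_left e he := h.g_left e (hF he)
  g_right e he := h.g_right e (hF he)
  g_ne e he := h.g_ne e (hF he)
  nsc e he f hf := h.nsc e (hF he) f (hF hf)

theorem Drawing.neg (h : Drawing X x y F g) : Drawing X x (fun a => - y a) F (fun e t => - g e t) where
  inj := h.inj
  left_mem := h.left_mem
  right_mem := h.right_mem
  lt := h.lt
  g_left e he := by rw [h.g_left e he]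
  g_right e he := by rw [h.g_right e he]
  g_ne e he z hz h1 h2 h3 := h.g_ne e he z hz h1 h2 (neg_injective h3)
  nsc e he f hf h1 h2 h3 h4 s t a1 a2 a3 a4 b1 b2 b3 b4 c1 c2 :=
    h.nsc e he f hf h1 h2 h3 h4 t s b1 b2 b3 b4 a1 a2 a3 a4 (by linarith) (by linarith)

/-- charging data: edge `(u,a)`, next right neighbour `c`, charged vertex `w` -/
structure Charge (X : Finset α) (x y : α → ℝ) (F : Finset (α × α)) (g : α × α → ℝ → ℝ)
    (u a c w : α) : Prop where
  ha : (u, a) ∈ F
  hc : (u, c) ∈ F
  hw : w ∈ X
  h1 : x u < x w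
  h2 : x w ≤ x a
  h3 : x a < x c
  hcmin : ∀ b, (u, b) ∈ F → x a < x b → x c ≤ x b
  h4 : y w < g (u, c) (x w)
  h5 : ∀ b, (u, b) ∈ F → x b ≤ x a → x w ≤ x b → g (u, b) (x w) ≤ y w
  h5' : w = a ∨ ∀ b, (u, b) ∈ F → x b ≤ x a → x w ≤ x b → g (u, b) (x w) < y w
  h6 : ∀ z ∈ X, x u < x z → x z < x w → ¬ (y z < g (u, c) (x z) ∧
    ∀ b, (u, b) ∈ F → x b ≤ x a → x z ≤ x b → g (u, b) (x z) < y z)

/-- existence of the charge -/
theorem exists_charge (h : Drawing X x y F g)
    (habove : ∀ u a b, (u, a) ∈ F → (u, b) ∈ F → x a < x b → y a < g (u, b) (x a))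
    {u a : α} (ha : (u, a) ∈ F) (hnl : ∃ b, (u, b) ∈ F ∧ x a < x b) :
    ∃ c w, Charge X x y F g u a c w := by
  classical
  -- next neighbour
  obtain ⟨b0, hb0, hb0'⟩ := hnl
  obtain ⟨c, hc, hcmin⟩ := Finset.exists_min_image
    ((F.filter (fun e => e.1 = u ∧ x a < x e.2)).image Prod.snd) x
    ⟨b0, Finset.mem_image.2 ⟨(u, b0), Finset.mem_filter.2 ⟨hb0, rfl, hb0'⟩, rfl⟩⟩
  obtain ⟨ec, hec, hec2⟩ := Finset.mem_image.1 hc
  rw [Finset.mem_filter] at hec
  have hcF : (u, c) ∈ F := by
    have : ec = (u, c) := Prod.ext hec.2.1 hec2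
    rw [← this]; exact hec.1
  have hac : x a < x c := by rw [← hec2]; exact hec.2.2
  have hcmin' : ∀ b, (u, b) ∈ F → x a < x b → x c ≤ x b := by
    intro b hb hab
    exact hcmin b (Finset.mem_image.2 ⟨(u, b), Finset.mem_filter.2 ⟨hb, rfl, hab⟩, rfl⟩)
  have haX : a ∈ X := h.right_mem _ ha
  have hua : x u < x a := h.lt _ ha
  -- candidates
  let P : α → Prop := fun w => x u < x w ∧ x w ≤ x a ∧ (w = a ∨ (y w < g (u, c) (x w) ∧
    ∀ b, (u, b) ∈ F → x b ≤ x a → x w ≤ x b → g (u, b) (x w) < y w))
  obtain ⟨w, hw, hwmin⟩ := Finset.exists_min_image (X.filter P) x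
    ⟨a, Finset.mem_filter.2 ⟨haX, hua, le_rfl, Or.inl rfl⟩⟩
  rw [Finset.mem_filter] at hw
  obtain ⟨hwX, hw1, hw2, hw3⟩ := hw
  refine ⟨c, w, ha, hcF, hwX, hw1, hw2, hac, hcmin', ?_, ?_, ?_, ?_⟩
  · rcases hw3 with rfl | hw3
    · exact habove u w c ha hcF hac
    · exact hw3.1
  · intro b hb hba hwb
    rcases hw3 with rfl | hw3
    · have hbeq : b = w := h.inj b (h.right_mem _ hb) w hwX (le_antisymm hba hwb)
      rw [hbeq]
      exact (h.g_right (u, w) ha).le
    · exact (hw3.2 b hb hba hwb).le
  · rcases hw3 with rfl | hw3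
    · exact Or.inl rfl
    · exact Or.inr hw3.2
  · intro z hz hz1 hz2 hz3
    have hzP : z ∈ X.filter P :=
      Finset.mem_filter.2 ⟨hz, hz1, (hz2.le.trans hw2), Or.inr hz3⟩
    exact absurd (hwmin z hzP) (not_le.2 hz2)

/-- (d): same left endpoint -/
theorem charge_inj (h : Drawing X x y F g) {u a c a' c' w : α}
    (h1 : Charge X x y F g u a c w) (h2 : Charge X x y F g u a' c' w) : a = a' := by
  by_contra hne
  wlog hlt : x a < x a' generalizing a a' c c' with H
  · have hne2 : x a ≠ x a' := fun he => hne (h.inj a (h.right_mem _ h1.ha) a' (h.right_mem _ h2.ha) he)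
    exact H h2 h1 (Ne.symm hne) (lt_of_le_of_ne (not_lt.1 hlt) (Ne.symm hne2))
  -- l = c is ≤ a'
  have hca' : x c ≤ x a' := h1.hcmin a' h2.ha hlt
  have hwc : x w ≤ x c := h1.h2.trans h1.h3.le
  have k := h2.h5 c h1.hc hca' hwc
  exact absurd h1.h4 (not_lt.2 k)

/-- (e): different left endpoints -/
theorem charge_pair (h : Drawing X x y F g)
    (habove : ∀ u a b, (u, a) ∈ F → (u, b) ∈ F → x a < x b → y a < g (u, b) (x a))
    {u a c u' a' c' w : α}
    (h1 : Charge X x y F g u a c w) (h2 : Charge X x y F g u' a' c' w) (hlt : x u < x u') :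
    a' = c ∨ c' = a := by
  classical
  by_contra hcon
  push Not at hcon
  obtain ⟨hc1, hc2⟩ := hcon
  have hu'X : u' ∈ X := h.left_mem _ h2.ha
  have huX : u ∈ X := h.left_mem _ h1.ha
  have hu'w : x u' < x w := h2.h1
  have hne : ∀ {p q : α}, x p < x q → p ≠ q := fun hpq he => by rw [he] at hpq; exact lt_irrefl _ hpq
  have hwa : x w ≤ x a := h1.h2
  have hac : x a < x c := h1.h3
  have hwa' : x w ≤ x a' := h2.h2
  have hac' : x a' < x c' := h2.h3
  -- u' is not a candidate for (u,a)
  have hnot := h1.h6 u' hu'X hlt hu'w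
  by_cases hcase : y u' < g (u, c) (x u')
  · -- case 2
    have hex : ∃ l, (u, l) ∈ F ∧ x l ≤ x a ∧ x u' < x l ∧ y u' < g (u, l) (x u') := by
      by_contra hno
      apply hnot
      refine ⟨hcase, fun b hb hba hub => ?_⟩
      rcases eq_or_lt_of_le hub with heq | hub'
      · -- u' = b; then use l = a
        exfalso
        have hbu : b = u' := h.inj b (h.right_mem _ hb) u' hu'X heq.symm
        have hba' : x b < x a := by rw [← heq]; linarith
        apply hno
        refine ⟨a, h1.ha, le_rfl, by linarith, ?_⟩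
        have := habove u b a hb h1.ha hba'
        rw [hbu] at this
        exact this
      · rcases lt_trichotomy (g (u, b) (x u')) (y u') with h3 | h3 | h3
        · exact h3
        · exact absurd h3 (h.g_ne (u, b) hb u' hu'X hlt hub')
        · exact absurd ⟨b, hb, hba, hub', h3⟩ hno
    obtain ⟨l, hl, hla, hul, hyl⟩ := hex
    have hgc' : y w < g (u', c') (x w) := h2.h4
    have hg0 : g (u', c') (x u') = y u' := h.g_left (u', c') h2.hc
    have hga : g (u, a) (x w) ≤ y w := h1.h5 a h1.ha le_rfl hwa
    -- (u',c') and (u,a) are disjoint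
    have d1 : u' ≠ u := (hne hlt).symm
    have d2 : u' ≠ a := hne (by linarith)
    have d3 : c' ≠ u := (hne (by linarith)).symm
    by_cases h2a : x w ≤ x l
    · -- (2a)
      have hgl : g (u, l) (x w) ≤ y w := h1.h5 l hl hla h2a
      have d4 : u' ≠ l := hne hul
      have heq : c' = l := by
        by_contra hcl
        exact h.nsc (u', c') h2.hc (u, l) hl d1 d4 d3 hcl (x u') (x w) le_rfl (by simpa using hlt.le)
          (by simp only []; linarith) (by simpa using hul.le) (by simp only []; linarith)
          (by simp only []; linarith) (by simp only []; linarith) (by simpa using h2a)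
          (by rw [hg0]; exact hyl) (lt_of_le_of_lt hgl hgc')
      have hla' : x l < x a := by
        rcases eq_or_lt_of_le hla with he | hl'
        · exact absurd (heq.trans (h.inj l (h.right_mem _ hl) a (h.right_mem _ h1.ha) he)) hc2
        · exact hl'
      have hy : g (u', c') (x l) < g (u, a) (x l) := by
        have := h.g_right (u', c') h2.hc
        simp only [] at this
        rw [heq] at this
        rw [heq, this]
        exact habove u l a hl h1.ha hla'
      exact h.nsc (u', c') h2.hc (u, a) h1.ha d1 d2 d3 hc2 (x l) (x w) (by simpa using hul.le)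
        (by simp only []; linarith) (by rw [heq]) (by simpa using hla) (by simp only []; linarith)
        (by simp only []; linarith) (by simp only []; linarith) (by simpa using hwa)
        hy (lt_of_le_of_lt hga hgc')
    · -- (2b)
      push Not at h2a
      have hlc' : x l < x c' := by linarith
      have d4 : u' ≠ l := hne hul
      have d5 : c' ≠ l := (hne hlc').symm
      have hgl : g (u', c') (x l) ≤ y l := by
        by_contra hcon2
        push Not at hcon2
        have hgr : g (u, l) (x l) = y l := h.g_right (u, l) hl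
        exact h.nsc (u', c') h2.hc (u, l) hl d1 d4 d3 d5 (x u') (x l) le_rfl (by simpa using hlt.le)
          (by simp only []; linarith) (by simpa using hul.le) (by simpa using hul.le)
          (by simp only []; linarith) (by simp only []; linarith) (by simp)
          (by rw [hg0]; exact hyl) (by rw [hgr]; exact hcon2)
      have hla' : x l < x a := by linarith
      have hy : g (u', c') (x l) < g (u, a) (x l) :=
        lt_of_le_of_lt hgl (habove u l a hl h1.ha hla')
      exact h.nsc (u', c') h2.hc (u, a) h1.ha d1 d2 d3 hc2 (x l) (x w) (by simpa using hul.le)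
        (by simp only []; linarith) (by simp only []; linarith) (by simpa using hla)
        (by simp only []; linarith)
        (by simp only []; linarith) (by simp only []; linarith) (by simpa using hwa)
        hy (lt_of_le_of_lt hga hgc')
  · -- case 1
    have hgt : g (u, c) (x u') < y u' := by
      rcases lt_trichotomy (g (u, c) (x u')) (y u') with h3 | h3 | h3
      · exact h3
      · exact absurd h3 (h.g_ne (u, c) h1.hc u' hu'X hlt (by simp only []; linarith))
      · exact absurd h3 hcase
    have hga' : g (u', a') (x w) ≤ y w := h2.h5 a' h2.ha le_rfl hwa'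
    have hg0 : g (u', a') (x u') = y u' := h.g_left (u', a') h2.ha
    have d1 : u ≠ u' := hne hlt
    have d2 : u ≠ a' := hne (by linarith)
    have d3 : c ≠ u' := (hne (by linarith)).symm
    exact h.nsc (u, c) h1.hc (u', a') h2.ha d1 d2 d3 (Ne.symm hc1) (x u') (x w) (by simpa using hlt.le)
      le_rfl (by simp only []; linarith) (by simp only []; linarith) (by simp only []; linarith)
      (by simpa using hu'w.le) (by simp only []; linarith) (by simpa using hwa')
      (by rw [hg0]; exact hgt) (lt_of_le_of_lt hga' h1.h4)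

/-- the half class: `≤ 4n` -/
theorem half_bound (h : Drawing X x y F g)
    (habove : ∀ u a b, (u, a) ∈ F → (u, b) ∈ F → x a < x b → y a < g (u, b) (x a)) :
    F.card ≤ 4 * X.card := by
  classical
  set NL := F.filter (fun e => ∃ b, (e.1, b) ∈ F ∧ x e.2 < x b) with hNL
  -- non-last edges
  have hch : ∀ e ∈ NL, ∃ p : α × α, Charge X x y F g e.1 e.2 p.1 p.2 := by
    intro e he
    rw [hNL, Finset.mem_filter] at he
    obtain ⟨c, w, hcw⟩ := exists_charge h habove (u := e.1) (a := e.2) he.1 he.2
    exact ⟨(c, w), hcw⟩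
  choose! p hp using hch
  have hcard1 : NL.card ≤ 3 * X.card := by
    apply Finset.card_le_mul_card_image_of_maps_to (f := fun e => (p e).2)
    · intro e he
      exact (hp e he).hw
    · intro w _
      set S := NL.filter (fun e => (p e).2 = w) with hS
      rcases S.eq_empty_or_nonempty with hemp | hne
      · rw [hemp]; simp
      obtain ⟨e0, he0, hmin⟩ := Finset.exists_min_image S (fun e => x e.1) hne
      have hmem : ∀ e ∈ S, e ∈ NL ∧ (p e).2 = w := fun e he => Finset.mem_filter.1 he
      have hC : ∀ e ∈ S, Charge X x y F g e.1 e.2 (p e).1 w := by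
        intro e he
        have := hp e (hmem e he).1
        rwa [(hmem e he).2] at this
      have hinj : ∀ e ∈ S, ∀ e' ∈ S, x e.1 = x e'.1 → e = e' := by
        intro e he e' he' hx
        have hu : e.1 = e'.1 := h.inj _ (h.left_mem _ (hC e he).ha) _ (h.left_mem _ (hC e' he').ha) hx
        have h1 := hC e he
        have h2 := hC e' he'
        rw [← hu] at h2
        exact Prod.ext hu (charge_inj h h1 h2)
      -- the rest
      set S1 := S.filter (fun e => e.2 = (p e0).1) with hS1
      set S2 := S.filter (fun e => (p e).1 = e0.2) with hS2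
      have hpair : ∀ e ∈ S, ∀ e' ∈ S, x e.1 < x e'.1 → e'.2 = (p e).1 ∨ (p e').1 = e.2 := by
        intro e he e' he' hlt
        exact charge_pair h habove (hC e he) (hC e' he') hlt
      have hself : ∀ e ∈ S, e.2 ≠ (p e).1 := by
        intro e he heq
        have := (hC e he).h3
        rw [← heq] at this
        exact lt_irrefl _ this
      have hsub : S ⊆ insert e0 (S1 ∪ S2) := by
        intro e he
        by_cases hee : e = e0
        · rw [hee]; exact Finset.mem_insert_self _ _
        · apply Finset.mem_insert_of_mem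
          have hlt : x e0.1 < x e.1 := lt_of_le_of_ne (hmin e he) fun hx =>
            hee (hinj e he e0 he0 hx.symm)
          rcases hpair e0 he0 e he hlt with h3 | h3
          · exact Finset.mem_union_left _ (Finset.mem_filter.2 ⟨he, h3⟩)
          · exact Finset.mem_union_right _ (Finset.mem_filter.2 ⟨he, h3⟩)
      have hc1 : S1.card ≤ 1 := by
        rw [Finset.card_le_one]
        intro e he e' he'
        rw [hS1, Finset.mem_filter] at he he'
        by_contra hee
        wlog hlt : x e.1 < x e'.1 generalizing e e' with H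
        · apply H e' he' e he (Ne.symm hee)
          exact lt_of_le_of_ne (not_lt.1 hlt) fun hx => hee (hinj e he.1 e' he'.1 hx.symm)
        rcases hpair e he.1 e' he'.1 hlt with h3 | h3
        · exact hself e he.1 (by rw [he.2, ← he'.2, h3])
        · exact hself e' he'.1 (by rw [he'.2, ← he.2, h3])
      have hc2 : S2.card ≤ 1 := by
        rw [Finset.card_le_one]
        intro e he e' he'
        rw [hS2, Finset.mem_filter] at he he'
        by_contra hee
        wlog hlt : x e.1 < x e'.1 generalizing e e' with H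
        · apply H e' he' e he (Ne.symm hee)
          exact lt_of_le_of_ne (not_lt.1 hlt) fun hx => hee (hinj e he.1 e' he'.1 hx.symm)
        rcases hpair e he.1 e' he'.1 hlt with h3 | h3
        · exact hself e' he'.1 (by rw [h3, he.2, he'.2])
        · exact hself e he.1 (by rw [← h3, he'.2, he.2])
      calc S.card ≤ (insert e0 (S1 ∪ S2)).card := Finset.card_le_card hsub
        _ ≤ (S1 ∪ S2).card + 1 := Finset.card_insert_le _ _
        _ ≤ (S1.card + S2.card) + 1 := by
            have := Finset.card_union_le S1 S2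
            omega
        _ ≤ 3 := by omega
  -- last edges
  have hcard2 : (F.filter (fun e => ¬ ∃ b, (e.1, b) ∈ F ∧ x e.2 < x b)).card ≤ X.card := by
    apply Finset.card_le_card_of_injOn (fun e => e.1)
    · intro e he
      have he' := Finset.mem_filter.1 he
      exact h.left_mem e he'.1
    · intro e he e' he' heq
      have h1 := Finset.mem_filter.1 he
      have h2 := Finset.mem_filter.1 he'
      have heq' : e.1 = e'.1 := heq
      apply Prod.ext heq'
      by_contra hne
      have hx : x e.2 ≠ x e'.2 := fun hx => hne (h.inj _ (h.right_mem _ h1.1) _ (h.right_mem _ h2.1) hx)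
      rcases lt_or_gt_of_ne hx with hlt | hlt
      · exact h1.2 ⟨e'.2, by rw [heq']; exact h2.1, hlt⟩
      · exact h2.2 ⟨e.2, by rw [← heq']; exact h1.1, hlt⟩
  have hsplit : NL.card + (F.filter (fun e => ¬ ∃ b, (e.1, b) ∈ F ∧ x e.2 < x b)).card = F.card := by
    rw [hNL]
    exact Finset.card_filter_add_card_filter_not _
  omega

/-- **C1**: linear bound when only edges sharing an endpoint may cross -/
theorem linear_bound (h : Drawing X x y F g) : F.card ≤ 9 * X.card := by
  classical
  -- leftmost edges into a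
  set F0 := F.filter (fun e => ¬ ∃ z, (z, e.2) ∈ F ∧ x z < x e.1) with hF0
  set F1 := F.filter (fun e => ∃ z, (z, e.2) ∈ F ∧ x z < x e.1) with hF1
  have hcard0 : F0.card ≤ X.card := by
    apply Finset.card_le_card_of_injOn (fun e => e.2)
    · intro e he
      exact h.right_mem e (Finset.mem_filter.1 he).1
    · intro e he e' he' heq
      have h1 := Finset.mem_filter.1 he
      have h2 := Finset.mem_filter.1 he'
      have heq' : e.2 = e'.2 := heq
      refine Prod.ext ?_ heq'
      by_contra hne
      have hx : x e.1 ≠ x e'.1 := fun hx => hne (h.inj _ (h.left_mem _ h1.1) _ (h.left_mem _ h2.1) hx)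
      rcases lt_or_gt_of_ne hx with hlt | hlt
      · exact h2.2 ⟨e.1, by rw [← heq']; exact h1.1, hlt⟩
      · exact h1.2 ⟨e'.1, by rw [heq']; exact h2.1, hlt⟩
  have hne : ∀ {p q : α}, x p < x q → p ≠ q := fun hpq he => by rw [he] at hpq; exact lt_irrefl _ hpq
  -- (b) all edges (u,b) beyond a pass on the same side of a
  have hside : ∀ u a, (u, a) ∈ F1 →
      (∀ b, (u, b) ∈ F → x a < x b → y a < g (u, b) (x a)) ∨
      (∀ b, (u, b) ∈ F → x a < x b → g (u, b) (x a) < y a) := by
    intro u a hua
    rw [hF1, Finset.mem_filter] at hua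
    obtain ⟨huaF, z, hza, hzu⟩ := hua
    simp only [] at hza hzu
    have huX : u ∈ X := h.left_mem _ huaF
    have haX : a ∈ X := h.right_mem _ huaF
    have hxua : x u < x a := h.lt _ huaF
    have key : ∀ b, (u, b) ∈ F → x a < x b → (g (z, a) (x u) < y u ↔ y a < g (u, b) (x a)) := by
      intro b hb hab
      have d1 : z ≠ u := hne hzu
      have d2 : z ≠ b := hne (by linarith)
      have d3 : a ≠ u := (hne hxua).symm
      have d4 : a ≠ b := hne hab
      have e1 : g (u, b) (x u) = y u := h.g_left (u, b) hb
      have e2 : g (z, a) (x a) = y a := h.g_right (z, a) hza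
      constructor
      · intro h1
        rcases lt_trichotomy (g (u, b) (x a)) (y a) with h3 | h3 | h3
        · exfalso
          exact h.nsc (z, a) hza (u, b) hb d1 d2 d3 d4 (x u) (x a) (by simpa using hzu.le) le_rfl
            (by simpa using hxua.le) (by simp only []; linarith) (by simp only []; linarith)
            (by simpa using hxua.le) le_rfl (by simpa using hab.le)
            (by rw [e1]; exact h1) (by rw [e2]; exact h3)
        · exact absurd h3 (h.g_ne (u, b) hb a haX hxua hab)
        · exact h3
      · intro h1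
        rcases lt_trichotomy (g (z, a) (x u)) (y u) with h3 | h3 | h3
        · exact h3
        · exact absurd h3 (h.g_ne (z, a) hza u huX hzu hxua)
        · exfalso
          exact h.nsc (z, a) hza (u, b) hb d1 d2 d3 d4 (x a) (x u) (by simp only []; linarith)
            (by simpa using hxua.le) le_rfl (by simpa using hab.le) (by simpa using hzu.le) le_rfl
            (by simpa using hxua.le) (by simp only []; linarith)
            (by rw [e2]; exact h1) (by rw [e1]; exact h3)
    by_cases hs : g (z, a) (x u) < y u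
    · left
      intro b hb hab
      exact (key b hb hab).1 hs
    · right
      intro b hb hab
      rcases lt_trichotomy (g (u, b) (x a)) (y a) with h3 | h3 | h3
      · exact h3
      · exact absurd h3 (h.g_ne (u, b) hb a haX hxua hab)
      · exact absurd ((key b hb hab).2 h3) hs
  set Fm := F1.filter (fun e => ∀ b, (e.1, b) ∈ F → x e.2 < x b → y e.2 < g (e.1, b) (x e.2)) with hFm
  set Fp := F1.filter (fun e => ∀ b, (e.1, b) ∈ F → x e.2 < x b → g (e.1, b) (x e.2) < y e.2) with hFp
  have hF1sub : F1 ⊆ F := Finset.filter_subset _ _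
  have hFmsub : Fm ⊆ F := (Finset.filter_subset _ _).trans hF1sub
  have hFpsub : Fp ⊆ F := (Finset.filter_subset _ _).trans hF1sub
  have hm : Fm.card ≤ 4 * X.card := by
    apply half_bound (h.subset hFmsub)
    intro u a b hua hub hab
    exact (Finset.mem_filter.1 hua).2 b (hFmsub hub) hab
  have hp : Fp.card ≤ 4 * X.card := by
    apply half_bound (h.subset hFpsub).neg
    intro u a b hua hub hab
    have := (Finset.mem_filter.1 hua).2 b (hFpsub hub) hab
    simp only [] at this ⊢
    linarith
  have hunion : F1 ⊆ Fm ∪ Fp := by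
    intro e he
    rcases hside e.1 e.2 he with h1 | h1
    · exact Finset.mem_union_left _ (Finset.mem_filter.2 ⟨he, h1⟩)
    · exact Finset.mem_union_right _ (Finset.mem_filter.2 ⟨he, h1⟩)
  have h1 : F1.card ≤ Fm.card + Fp.card := (Finset.card_le_card hunion).trans (Finset.card_union_le _ _)
  have hsplit : F1.card + F0.card = F.card := by
    rw [hF1, hF0]
    exact Finset.card_filter_add_card_filter_not _
  omega

end Crest.Agent.R051.C1
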