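import Mathlib

set_option autoImplicit false

/-!
# Crossing lemma for straight-line graphs in the plane

Points are elements of `ℝ × ℝ`.  Edges are pairs `(p, q)` with `p.1 < q.1`.
-/

namespace Crest.Agent.R051

abbrev Pt := ℝ × ℝ

/-- Orientation determinant of the triple `p, q, r`. -/
def orient (p q r : Pt) : ℝ := (q.1 - p.1) * (r.2 - p.2) - (q.2 - p.2) * (r.1 - p.1)

/-- General position: distinct abscissae and no three collinear. -/
structure GenPos (V : Finset Pt) : Prop where
  x_ne : ∀ p ∈ V, ∀ q ∈ V, p ≠ q → p.1 ≠ q.1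
  col : ∀ p ∈ V, ∀ q ∈ V, ∀ r ∈ V, p ≠ q → p ≠ r → q ≠ r → orient p q r ≠ 0

lemma GenPos.mono {V W : Finset Pt} (h : GenPos V) (hW : W ⊆ V) : GenPos W :=
  ⟨fun p hp q hq => h.x_ne p (hW hp) q (hW hq),
   fun p hp q hq r hr => h.col p (hW hp) q (hW hq) r (hW hr)⟩

/-- Two (oriented left to right) segments cross properly. -/
def Cross (e f : Pt × Pt) : Prop :=
  orient e.1 e.2 f.1 * orient e.1 e.2 f.2 < 0 ∧ orient f.1 f.2 e.1 * orient f.1 f.2 e.2 < 0

lemma Cross.symm {e f : Pt × Pt} (h : Cross e f) : Cross f e := ⟨h.2, h.1⟩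

lemma cross_comm {e f : Pt × Pt} : Cross e f ↔ Cross f e := ⟨Cross.symm, Cross.symm⟩

/-- slope of an edge -/
noncomputable def slp (e : Pt × Pt) : ℝ := (e.2.2 - e.1.2) / (e.2.1 - e.1.1)

/-- height of the line through `e` above abscissa `x`. -/
noncomputable def ht (e : Pt × Pt) (x : ℝ) : ℝ := e.1.2 + slp e * (x - e.1.1)

lemma ht_left (e : Pt × Pt) : ht e e.1.1 = e.1.2 := by simp [ht]

lemma ht_right {e : Pt × Pt} (he : e.1.1 < e.2.1) : ht e e.2.1 = e.2.2 := by
  have : e.2.1 - e.1.1 ≠ 0 := by linarith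
  unfold ht slp; field_simp; ring

lemma orient_eq {e : Pt × Pt} (he : e.1.1 < e.2.1) (r : Pt) :
    orient e.1 e.2 r = (e.2.1 - e.1.1) * (r.2 - ht e r.1) := by
  have : e.2.1 - e.1.1 ≠ 0 := by linarith
  unfold orient ht slp; field_simp; ring

lemma orient_self_left (p q : Pt) : orient p q p = 0 := by unfold orient; ring
lemma orient_self_right (p q : Pt) : orient p q q = 0 := by unfold orient; ring

/-- If the two heights agree strictly inside both ranges, and differ somewhere, the edges cross. -/
lemma cross_of_zero {e f : Pt × Pt} (he : e.1.1 < e.2.1) (hf : f.1.1 < f.2.1)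
    {x₀ : ℝ} (h0 : ht e x₀ = ht f x₀) (hs : slp e ≠ slp f)
    (h1 : e.1.1 < x₀) (h2 : x₀ < e.2.1) (h3 : f.1.1 < x₀) (h4 : x₀ < f.2.1) : Cross e f := by
  have key : ∀ x, ht e x - ht f x = (slp e - slp f) * (x - x₀) := by
    intro x
    unfold ht at h0 ⊢
    linarith
  have hsq : 0 < (slp e - slp f) ^ 2 := by
    have : slp e - slp f ≠ 0 := sub_ne_zero.mpr hs
    positivity
  refine ⟨?_, ?_⟩
  · rw [orient_eq he, orient_eq he]
    have a1 : f.1.2 - ht e f.1.1 = (slp e - slp f) * (x₀ - f.1.1) := by
      have := key f.1.1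
      rw [ht_left] at this; linarith
    have a2 : f.2.2 - ht e f.2.1 = (slp e - slp f) * (x₀ - f.2.1) := by
      have := key f.2.1
      rw [ht_right hf] at this; linarith
    rw [a1, a2]
    have : (e.2.1 - e.1.1) * ((slp e - slp f) * (x₀ - f.1.1)) *
        ((e.2.1 - e.1.1) * ((slp e - slp f) * (x₀ - f.2.1)))
        = -((slp e - slp f) ^ 2 * (e.2.1 - e.1.1) ^ 2 * ((x₀ - f.1.1) * (f.2.1 - x₀))) := by ring
    rw [this]
    have p1 : 0 < (e.2.1 - e.1.1) ^ 2 := by
      have : 0 < e.2.1 - e.1.1 := by linarith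
      positivity
    have p2 : 0 < (x₀ - f.1.1) * (f.2.1 - x₀) := mul_pos (by linarith) (by linarith)
    have := mul_pos (mul_pos hsq p1) p2
    linarith
  · rw [orient_eq hf, orient_eq hf]
    have a1 : e.1.2 - ht f e.1.1 = (slp e - slp f) * (e.1.1 - x₀) := by
      have := key e.1.1
      rw [ht_left] at this; linarith
    have a2 : e.2.2 - ht f e.2.1 = (slp e - slp f) * (e.2.1 - x₀) := by
      have := key e.2.1
      rw [ht_right he] at this; linarith
    rw [a1, a2]
    have : (f.2.1 - f.1.1) * ((slp e - slp f) * (e.1.1 - x₀)) *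
        ((f.2.1 - f.1.1) * ((slp e - slp f) * (e.2.1 - x₀)))
        = -((slp e - slp f) ^ 2 * (f.2.1 - f.1.1) ^ 2 * ((x₀ - e.1.1) * (e.2.1 - x₀))) := by ring
    rw [this]
    have p1 : 0 < (f.2.1 - f.1.1) ^ 2 := by
      have : 0 < f.2.1 - f.1.1 := by linarith
      positivity
    have p2 : 0 < (x₀ - e.1.1) * (e.2.1 - x₀) := mul_pos (by linarith) (by linarith)
    have := mul_pos (mul_pos hsq p1) p2
    linarith

/-- An affine difference changing sign forces a crossing. -/
lemma noncross_sign {e f : Pt × Pt} (he : e.1.1 < e.2.1) (hf : f.1.1 < f.2.1)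
    (hnc : ¬ Cross e f) {x y : ℝ}
    (x1 : e.1.1 ≤ x) (x2 : x ≤ e.2.1) (x3 : f.1.1 ≤ x) (x4 : x ≤ f.2.1)
    (y1 : e.1.1 ≤ y) (y2 : y ≤ e.2.1) (y3 : f.1.1 ≤ y) (y4 : y ≤ f.2.1)
    (h : ht e x < ht f x) : ht e y ≤ ht f y := by
  by_contra hcon
  push Not at hcon
  apply hnc
  have haff : ∀ z, ht e z - ht f z = (ht e x - ht f x) + (slp e - slp f) * (z - x) := by
    intro z; unfold ht; ring
  have hy := haff y
  have hneg : ht e x - ht f x < 0 := by linarith
  have hpos : 0 < ht e y - ht f y := by linarith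
  have hs : slp e - slp f ≠ 0 := by
    intro h0
    rw [h0] at hy; linarith
  have hsyx : 0 < (slp e - slp f) * (y - x) := by linarith
  set s := slp e - slp f with hsdef
  set a := ht f x - ht e x with ha
  have ha' : 0 < a := by linarith
  have hx0 : a < s * (y - x) := by
    have : ht e x - ht f x = -a := by rw [ha]; ring
    rw [this] at hy; linarith
  -- x₀ = x + a / s
  have h0 : ht e (x + a / s) = ht f (x + a / s) := by
    have := haff (x + a / s)
    have h2 : s * (x + a / s - x) = a := by field_simp; ring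
    rw [h2] at this
    have : ht e (x + a / s) - ht f (x + a / s) = 0 := by rw [this, ha]; ring
    linarith
  have hne : slp e ≠ slp f := sub_ne_zero.mp hs
  rcases lt_or_gt_of_ne hs with hsneg | hspos
  · -- s < 0, so y < x
    have hyx : y < x := by
      by_contra hh
      push Not at hh
      have : s * (y - x) ≤ 0 := mul_nonpos_of_nonpos_of_nonneg hsneg.le (by linarith)
      linarith
    have hlt : x + a / s < x := by
      have : a / s < 0 := div_neg_of_pos_of_neg ha' hsneg
      linarith
    have hgt : y < x + a / s := by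
      have : y - x < a / s := by
        rw [lt_div_iff_of_neg hsneg]; linarith
      linarith
    exact cross_of_zero he hf h0 hne (by linarith) (by linarith) (by linarith) (by linarith)
  · have hyx : x < y := by
      by_contra hh
      push Not at hh
      have : s * (y - x) ≤ 0 := mul_nonpos_of_nonneg_of_nonpos hspos.le (by linarith)
      linarith
    have hgt : x < x + a / s := by
      have : 0 < a / s := div_pos ha' hspos
      linarith
    have hlt : x + a / s < y := by
      have : a / s < y - x := by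
        rw [div_lt_iff₀ hspos]; linarith
      linarith
    exact cross_of_zero he hf h0 hne (by linarith) (by linarith) (by linarith) (by linarith)

/-- Edge set of a geometric graph on `V`. -/
def IsEdges (V : Finset Pt) (E : Finset (Pt × Pt)) : Prop :=
  ∀ e ∈ E, e.1 ∈ V ∧ e.2 ∈ V ∧ e.1.1 < e.2.1

lemma IsEdges.mono {V : Finset Pt} {E F : Finset (Pt × Pt)} (h : IsEdges V E) (hF : F ⊆ E) :
    IsEdges V F := fun e he => h e (hF he)

lemma slp_ne {V : Finset Pt} (hV : GenPos V) {e f : Pt × Pt}
    (he : e.1 ∈ V ∧ e.2 ∈ V ∧ e.1.1 < e.2.1) (hf : f.1 ∈ V ∧ f.2 ∈ V ∧ f.1.1 < f.2.1)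
    (h : e.1 = f.1) (hne : e ≠ f) : slp e ≠ slp f := by
  intro hs
  have h2 : e.2 ≠ f.2 := fun h' => hne (Prod.ext h h')
  have hcol := hV.col e.1 he.1 e.2 he.2.1 f.2 hf.2.1 (fun h' => by
    have := he.2.2; rw [h'] at this; exact lt_irrefl _ this) (fun h' => by
    have := hf.2.2; rw [← h, h'] at this; exact lt_irrefl _ this) h2
  apply hcol
  rw [orient_eq he.2.2]
  have : ht e f.2.1 = ht f f.2.1 := by unfold ht; rw [hs, h]
  rw [this, ht_right hf.2.2]; ring

lemma slp_ne' {V : Finset Pt} (hV : GenPos V) {e f : Pt × Pt}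
    (he : e.1 ∈ V ∧ e.2 ∈ V ∧ e.1.1 < e.2.1) (hf : f.1 ∈ V ∧ f.2 ∈ V ∧ f.1.1 < f.2.1)
    (h : e.2 = f.2) (hne : e ≠ f) : slp e ≠ slp f := by
  intro hs
  have h2 : e.1 ≠ f.1 := fun h' => hne (Prod.ext h' h)
  have hcol := hV.col e.1 he.1 e.2 he.2.1 f.1 hf.1 (fun h' => by
    have := he.2.2; rw [h'] at this; exact lt_irrefl _ this) h2 (fun h' => by
    have := hf.2.2; rw [← h', h] at this; exact lt_irrefl _ this)
  apply hcol
  rw [orient_eq he.2.2]
  have e1 : ht e f.1.1 = e.2.2 + slp e * (f.1.1 - e.2.1) := by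
    have := ht_right he.2.2; unfold ht at this ⊢; linarith
  have e2 : f.1.2 = f.2.2 + slp f * (f.1.1 - f.2.1) := by
    have := ht_right hf.2.2; unfold ht at this; linarith
  rw [e1, e2, hs, h]; ring

open Classical in
/-- Key charging step: an edge which is neither lowest at its left end nor at its right end
sits directly above some vertex. -/
lemma exists_directly_below {V : Finset Pt} (hV : GenPos V) {E : Finset (Pt × Pt)}
    (hE : IsEdges V E) (hnc : ∀ e ∈ E, ∀ f ∈ E, ¬ Cross e f) {e : Pt × Pt} (heE : e ∈ E)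
    (h1 : ∃ f ∈ E, f.1 = e.1 ∧ slp f < slp e) (h2 : ∃ f ∈ E, f.2 = e.2 ∧ slp e < slp f) :
    ∃ z ∈ V, e.1.1 < z.1 ∧ z.1 < e.2.1 ∧ z.2 < ht e z.1 ∧
      ∀ f ∈ E, f.1.1 < z.1 → z.1 < f.2.1 → z.2 < ht f z.1 → ht e z.1 ≤ ht f z.1 := by
  have he := hE e heE
  -- choose e₁ with the largest slope below e at the left endpoint
  set S := E.filter (fun f => f.1 = e.1 ∧ slp f < slp e) with hS
  have hSne : S.Nonempty := by
    obtain ⟨f, hf, hf'⟩ := h1
    exact ⟨f, by simp [hS, hf, hf']⟩
  obtain ⟨e₁, he₁S, hmax⟩ := S.exists_max_image slp hSne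
  have he₁E : e₁ ∈ E := (Finset.mem_filter.mp he₁S).1
  have he₁l : e₁.1 = e.1 := (Finset.mem_filter.mp he₁S).2.1
  have he₁s : slp e₁ < slp e := (Finset.mem_filter.mp he₁S).2.2
  have he₁ := hE e₁ he₁E
  have hht1 : ∀ x, ht e x - ht e₁ x = (slp e - slp e₁) * (x - e.1.1) := by
    intro x; unfold ht; rw [he₁l]; ring
  have hlt1 : ∀ x, e.1.1 < x → ht e₁ x < ht e x := by
    intro x hx
    have := hht1 x
    have : 0 < (slp e - slp e₁) * (x - e.1.1) := mul_pos (by linarith) (by linarith)
    linarith
  obtain ⟨e₂, he₂E, he₂r, he₂s⟩ := h2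
  have he₂ := hE e₂ he₂E
  have hht2 : ∀ x, ht e₂ x - ht e x = (slp e₂ - slp e) * (x - e.2.1) := by
    intro x
    have a := ht_right he₂.2.2
    have b := ht_right he.2.2
    rw [he₂r] at a
    unfold ht at a b ⊢; linarith
  have hlt2 : ∀ x, x < e.2.1 → ht e₂ x < ht e x := by
    intro x hx
    have := hht2 x
    have : (slp e₂ - slp e) * (x - e.2.1) < 0 := mul_neg_of_pos_of_neg (by linarith) (by linarith)
    linarith
  set R := V.filter (fun z => e.1.1 < z.1 ∧ z.1 < e.2.1 ∧ z.1 ≤ e₁.2.1 ∧ ht e₁ z.1 ≤ z.2 ∧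
    z.2 < ht e z.1) with hR
  have hRne : R.Nonempty := by
    by_cases hc : e₁.2.1 < e.2.1
    · refine ⟨e₁.2, ?_⟩
      have hl : e.1.1 < e₁.2.1 := by rw [← he₁l]; exact he₁.2.2
      simp only [hR, Finset.mem_filter]
      refine ⟨he₁.2.1, hl, hc, le_refl _, ?_, ?_⟩
      · rw [ht_right he₁.2.2]
      · have := hlt1 _ hl
        rwa [ht_right he₁.2.2] at this
    · push Not at hc
      have hne : e₁.2 ≠ e.2 := by
        intro h'
        have : e₁ = e := Prod.ext he₁l h'
        rw [this] at he₁s; exact lt_irrefl _ he₁s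
      have hc' : e.2.1 < e₁.2.1 := lt_of_le_of_ne hc (fun h' =>
        hV.x_ne _ he₁.2.1 _ he.2.1 hne h'.symm)
      -- at abscissa e.2.1: ht e₁ < ht e = e.2.2 = ht e₂
      have hr : ht e₁ e.2.1 < ht e₂ e.2.1 := by
        have a := hlt1 _ he.2.2
        have b := hht2 e.2.1
        simp only [sub_self, mul_zero] at b
        linarith
      have h2l : e.1.1 < e₂.1.1 := by
        by_contra hcon
        push Not at hcon
        -- at e.1.1: ht e₂ < ht e = e.1.2 = ht e₁
        have b : ht e₂ e.1.1 < ht e₁ e.1.1 := by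
          have a := hlt2 _ he.2.2
          have c := hht1 e.1.1
          simp only [sub_self, mul_zero] at c
          linarith
        have := noncross_sign he₂.2.2 he₁.2.2 (hnc _ he₂E _ he₁E) (x := e.1.1) (y := e.2.1)
          hcon (by rw [he₂r]; exact he.2.2.le) (by rw [he₁l]) (by linarith [he.2.2])
          (by linarith [he.2.2]) (by rw [he₂r]) (by rw [he₁l]; exact he.2.2.le) hc b
        linarith
      refine ⟨e₂.1, ?_⟩
      have h2r : e₂.1.1 < e.2.1 := by rw [← he₂r]; exact he₂.2.2
      simp only [hR, Finset.mem_filter]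
      refine ⟨he₂.1, h2l, h2r, by linarith, ?_, ?_⟩
      · by_contra hcon
        push Not at hcon
        have b : ht e₂ e₂.1.1 < ht e₁ e₂.1.1 := by rw [ht_left]; exact hcon
        have := noncross_sign he₂.2.2 he₁.2.2 (hnc _ he₂E _ he₁E) (x := e₂.1.1) (y := e.2.1)
          (le_refl _) (by rw [he₂r]; exact h2r.le) (by rw [he₁l]; exact h2l.le) (by linarith)
          (by linarith) (by rw [he₂r]) (by rw [he₁l]; exact he.2.2.le) hc b
        linarith
      · have := hlt2 _ h2r
        rwa [ht_left] at this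
  obtain ⟨z, hzR, hzmin⟩ := R.exists_min_image (fun z => z.1) hRne
  simp only [hR, Finset.mem_filter] at hzR
  obtain ⟨hzV, z1, z2, z3, z4, z5⟩ := hzR
  refine ⟨z, hzV, z1, z2, z5, ?_⟩
  intro f hfE f1 f2 f3
  by_contra hcon
  push Not at hcon
  have hf := hE f hfE
  have hfe1 : ht e₁ z.1 < ht f z.1 := by linarith
  rcases lt_trichotomy f.1.1 e.1.1 with hc | hc | hc
  · -- f starts to the left of e
    have a1 : ht f e.1.1 ≤ ht e e.1.1 :=
      noncross_sign hf.2.2 he.2.2 (hnc _ hfE _ heE) (x := z.1) (y := e.1.1)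
        f1.le f2.le z1.le z2.le hc.le (by linarith) (le_refl _) he.2.2.le hcon
    have a2 : ht e₁ e.1.1 ≤ ht f e.1.1 :=
      noncross_sign he₁.2.2 hf.2.2 (hnc _ he₁E _ hfE) (x := z.1) (y := e.1.1)
        (by rw [he₁l]; exact z1.le) z3 f1.le f2.le (by rw [he₁l]) (by linarith) hc.le
        (by linarith) hfe1
    have a3 := hht1 e.1.1
    simp only [sub_self, mul_zero] at a3
    have a4 : ht f e.1.1 = e.1.2 := by
      have := ht_left e; linarith
    have hcol := hV.col f.1 hf.1 f.2 hf.2.1 e.1 he.1
      (fun h' => by have := hf.2.2; rw [h'] at this; exact lt_irrefl _ this)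
      (fun h' => by rw [h'] at hc; exact lt_irrefl _ hc)
      (fun h' => by rw [h'] at f2; linarith)
    apply hcol
    rw [orient_eq hf.2.2, a4]; ring
  · -- same left endpoint
    have hfl : f.1 = e.1 := by
      by_contra h'
      exact hV.x_ne _ hf.1 _ he.1 h' hc
    have s1 : slp f < slp e := by
      have : ht e z.1 - ht f z.1 = (slp e - slp f) * (z.1 - e.1.1) := by
        unfold ht; rw [hfl]; ring
      have hp : 0 < (slp e - slp f) * (z.1 - e.1.1) := by linarith
      have := (pos_iff_pos_of_mul_pos hp).mpr (by linarith)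
      linarith
    have s2 : slp e₁ < slp f := by
      have : ht f z.1 - ht e₁ z.1 = (slp f - slp e₁) * (z.1 - e.1.1) := by
        unfold ht; rw [hfl, he₁l]; ring
      have hp : 0 < (slp f - slp e₁) * (z.1 - e.1.1) := by linarith
      have := (pos_iff_pos_of_mul_pos hp).mpr (by linarith)
      linarith
    have := hmax f (by simp [hS, hfE, hfl, s1])
    linarith
  · -- f starts inside
    have a1 : ht f f.1.1 ≤ ht e f.1.1 :=
      noncross_sign hf.2.2 he.2.2 (hnc _ hfE _ heE) (x := z.1) (y := f.1.1)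
        f1.le f2.le z1.le z2.le (le_refl _) hf.2.2.le hc.le (by linarith) hcon
    have a2 : ht e₁ f.1.1 ≤ ht f f.1.1 :=
      noncross_sign he₁.2.2 hf.2.2 (hnc _ he₁E _ hfE) (x := z.1) (y := f.1.1)
        (by rw [he₁l]; exact z1.le) z3 f1.le f2.le (by rw [he₁l]; exact hc.le) (by linarith)
        (le_refl _) hf.2.2.le hfe1
    rw [ht_left] at a1 a2
    have a3 : f.1.2 < ht e f.1.1 := by
      refine lt_of_le_of_ne a1 ?_
      intro h'
      have hcol := hV.col e.1 he.1 e.2 he.2.1 f.1 hf.1
        (fun h' => by have := he.2.2; rw [h'] at this; exact lt_irrefl _ this)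
        (fun h' => by rw [h'] at hc; exact lt_irrefl _ hc)
        (fun h' => by rw [← h'] at f1; linarith)
      apply hcol
      rw [orient_eq he.2.2, h']; ring
    have := hzmin f.1 (by
      simp only [hR, Finset.mem_filter]
      exact ⟨hf.1, hc, by linarith, by linarith, a2, a3⟩)
    linarith

open Classical in
/-- A crossing-free straight-line graph on `V` has at most `3|V|` edges. -/
theorem planar_bound {V : Finset Pt} (hV : GenPos V) {E : Finset (Pt × Pt)}
    (hE : IsEdges V E) (hnc : ∀ e ∈ E, ∀ f ∈ E, ¬ Cross e f) : E.card ≤ 3 * V.card := by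
  set A := E.filter (fun e => ¬ ∃ f ∈ E, f.1 = e.1 ∧ slp f < slp e) with hA
  set B := E.filter (fun e => ¬ ∃ f ∈ E, f.2 = e.2 ∧ slp e < slp f) with hB
  set C := E.filter (fun e => (∃ f ∈ E, f.1 = e.1 ∧ slp f < slp e) ∧
    ∃ f ∈ E, f.2 = e.2 ∧ slp e < slp f) with hC
  have hcov : E ⊆ A ∪ B ∪ C := by
    intro e he
    simp only [hA, hB, hC, Finset.mem_union, Finset.mem_filter]
    tauto
  have hAc : A.card ≤ V.card := by
    apply Finset.card_le_card_of_injOn (fun e => e.1)
    · intro e he
      exact (hE e (Finset.mem_filter.mp he).1).1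
    · intro e he f hf h
      by_contra hne
      have he' := Finset.mem_filter.mp he
      have hf' := Finset.mem_filter.mp hf
      have := slp_ne hV (hE e he'.1) (hE f hf'.1) h hne
      rcases lt_or_gt_of_ne this with h1 | h1
      · exact hf'.2 ⟨e, he'.1, h, h1⟩
      · exact he'.2 ⟨f, hf'.1, h.symm, h1⟩
  have hBc : B.card ≤ V.card := by
    apply Finset.card_le_card_of_injOn (fun e => e.2)
    · intro e he
      exact (hE e (Finset.mem_filter.mp he).1).2.1
    · intro e he f hf h
      by_contra hne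
      have he' := Finset.mem_filter.mp he
      have hf' := Finset.mem_filter.mp hf
      have := slp_ne' hV (hE e he'.1) (hE f hf'.1) h hne
      rcases lt_or_gt_of_ne this with h1 | h1
      · exact he'.2 ⟨f, hf'.1, h.symm, h1⟩
      · exact hf'.2 ⟨e, he'.1, h, h1⟩
  have hCc : C.card ≤ V.card := by
    have hex : ∀ e ∈ C, ∃ z ∈ V, e.1.1 < z.1 ∧ z.1 < e.2.1 ∧ z.2 < ht e z.1 ∧
      ∀ f ∈ E, f.1.1 < z.1 → z.1 < f.2.1 → z.2 < ht f z.1 → ht e z.1 ≤ ht f z.1 := by
      intro e he
      have he' := Finset.mem_filter.mp he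
      exact exists_directly_below hV hE hnc he'.1 he'.2.1 he'.2.2
    choose! φ hφ using hex
    apply Finset.card_le_card_of_injOn φ
    · intro e he; exact (hφ e he).1
    · intro e he f hf h
      by_contra hne
      have he' := Finset.mem_filter.mp he
      have hf' := Finset.mem_filter.mp hf
      obtain ⟨-, a1, a2, a3, a4⟩ := hφ e he
      obtain ⟨-, b1, b2, b3, b4⟩ := hφ f hf
      have h : φ e = φ f := h
      rw [← h] at b1 b2 b3 b4
      have c1 := a4 f hf'.1 b1 b2 b3
      have c2 := b4 e he'.1 a1 a2 a3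
      have heq : ht e (φ e).1 = ht f (φ e).1 := le_antisymm c1 c2
      have hee := hE e he'.1
      have hff := hE f hf'.1
      have hs : slp e ≠ slp f := by
        intro hs
        -- lines coincide
        have hl : ∀ x, ht e x = ht f x := by
          intro x
          have : ht e x - ht f x = ht e (φ e).1 - ht f (φ e).1 := by
            unfold ht; rw [hs]; ring
          rw [heq, sub_self] at this; linarith
        by_cases hlf : e.1 = f.1
        · exact slp_ne hV hee hff hlf hne hs
        · have hcol := hV.col e.1 hee.1 e.2 hee.2.1 f.1 hff.1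
            (fun h' => by have := hee.2.2; rw [h'] at this; exact lt_irrefl _ this) hlf
            (fun h' => by rw [← h'] at b1; linarith)
          apply hcol
          rw [orient_eq hee.2.2, hl, ht_left]; ring
      exact hnc e he'.1 f hf'.1 (cross_of_zero hee.2.2 hff.2.2 heq hs a1 a2 b1 b2)
  calc E.card ≤ (A ∪ B ∪ C).card := Finset.card_le_card hcov
    _ ≤ (A ∪ B).card + C.card := Finset.card_union_le _ _
    _ ≤ A.card + B.card + C.card := by
        have := Finset.card_union_le A B; omega
    _ ≤ 3 * V.card := by omega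


open Classical in
/-- Ordered crossing pairs of an edge set. -/
noncomputable def crPairs (E : Finset (Pt × Pt)) : Finset ((Pt × Pt) × (Pt × Pt)) :=
  (E ×ˢ E).filter (fun p => Cross p.1 p.2)

lemma mem_crPairs {E : Finset (Pt × Pt)} {p : (Pt × Pt) × (Pt × Pt)} :
    p ∈ crPairs E ↔ p.1 ∈ E ∧ p.2 ∈ E ∧ Cross p.1 p.2 := by
  simp [crPairs, and_assoc]

lemma cross_irrefl {e : Pt × Pt} : ¬ Cross e e := by
  intro h
  have := h.1
  rw [orient_self_left] at this
  simp at this

open Classical in
/-- `2|E| ≤ 6|V| + #(ordered crossing pairs)`. -/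
theorem crossing_linear {V : Finset Pt} (hV : GenPos V) {E : Finset (Pt × Pt)}
    (hE : IsEdges V E) : 2 * E.card ≤ 6 * V.card + (crPairs E).card := by
  induction hn : E.card using Nat.strong_induction_on generalizing E with
  | _ n ih =>
    by_cases hnc : ∀ e ∈ E, ∀ f ∈ E, ¬ Cross e f
    · have := planar_bound hV hE hnc
      omega
    · push Not at hnc
      obtain ⟨e, he, f, hf, hc⟩ := hnc
      have hcard : (E.erase e).card = n - 1 := by rw [Finset.card_erase_of_mem he, hn]
      have hpos : 0 < n := by rw [← hn]; exact Finset.card_pos.mpr ⟨e, he⟩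
      have ih' := ih (n - 1) (by omega) (E := E.erase e)
        (hE.mono (Finset.erase_subset _ _)) hcard
      have hne : e ≠ f := by
        intro h; rw [← h] at hc; exact cross_irrefl hc
      have hsub : crPairs (E.erase e) ⊆ ((crPairs E).erase (e, f)).erase (f, e) := by
        intro p hp
        rw [mem_crPairs] at hp
        rw [Finset.mem_erase, Finset.mem_erase, mem_crPairs]
        have h1 := Finset.mem_erase.mp hp.1
        have h2 := Finset.mem_erase.mp hp.2.1
        refine ⟨?_, ?_, h1.2, h2.2, hp.2.2⟩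
        · intro h; rw [h] at h2; exact h2.1 rfl
        · intro h; rw [h] at h1; exact h1.1 rfl
      have hm1 : (e, f) ∈ crPairs E := by rw [mem_crPairs]; exact ⟨he, hf, hc⟩
      have hm2 : (f, e) ∈ (crPairs E).erase (e, f) := by
        rw [Finset.mem_erase, mem_crPairs]
        exact ⟨fun h => hne (Prod.ext_iff.mp h).2, hf, he, hc.symm⟩
      have hc1 := Finset.card_le_card hsub
      rw [Finset.card_erase_of_mem hm2, Finset.card_erase_of_mem hm1] at hc1
      have hp1 : 0 < (crPairs E).card := Finset.card_pos.mpr ⟨_, hm1⟩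
      have hp2 : 0 < ((crPairs E).erase (e, f)).card := Finset.card_pos.mpr ⟨_, hm2⟩
      rw [Finset.card_erase_of_mem hm1] at hp2
      omega

/-- Weights of the product measure on subsets. -/
lemma sum_powerset_weight {α : Type*} [DecidableEq α] (V A : Finset α) (hA : A ⊆ V) (p : ℝ) :
    ∑ W ∈ V.powerset, (if A ⊆ W then p ^ W.card * (1 - p) ^ (V.card - W.card) else 0)
      = p ^ A.card := by
  rw [← Finset.sum_filter]
  have h1 : ∑ W ∈ V.powerset.filter (fun W => A ⊆ W), p ^ W.card * (1 - p) ^ (V.card - W.card)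
      = ∑ U ∈ (V \ A).powerset, p ^ A.card * (p ^ U.card * (1 - p) ^ ((V \ A).card - U.card)) := by
    apply Finset.sum_bij' (fun W _ => W \ A) (fun U _ => U ∪ A)
    · intro W hW
      simp only [Finset.mem_filter, Finset.mem_powerset] at hW
      rw [Finset.mem_powerset]
      exact Finset.sdiff_subset_sdiff hW.1 (le_refl _)
    · intro U hU
      rw [Finset.mem_powerset] at hU
      simp only [Finset.mem_filter, Finset.mem_powerset]
      exact ⟨Finset.union_subset (hU.trans Finset.sdiff_subset) hA, Finset.subset_union_right⟩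
    · intro W hW
      simp only [Finset.mem_filter, Finset.mem_powerset] at hW
      exact Finset.sdiff_union_of_subset hW.2
    · intro U hU
      rw [Finset.mem_powerset] at hU
      ext x
      simp only [Finset.mem_sdiff, Finset.mem_union]
      constructor
      · rintro ⟨h1 | h1, h2⟩
        · exact h1
        · exact absurd h1 h2
      · intro h
        exact ⟨Or.inl h, (Finset.mem_sdiff.mp (hU h)).2⟩
    · intro W hW
      simp only [Finset.mem_filter, Finset.mem_powerset] at hW
      have hc1 : (W \ A).card + A.card = W.card := Finset.card_sdiff_add_card_eq_card hW.2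
      have hc2 : (V \ A).card + A.card = V.card := Finset.card_sdiff_add_card_eq_card hA
      have hc3 : V.card - W.card = (V \ A).card - (W \ A).card := by omega
      rw [hc3, ← hc1, pow_add]
      ring
  rw [h1, ← Finset.mul_sum]
  have h2 : ∑ U ∈ (V \ A).powerset, p ^ U.card * (1 - p) ^ ((V \ A).card - U.card) = 1 := by
    have h3 := Finset.prod_add (fun _ => p) (fun _ => 1 - p) (V \ A)
    simp only [add_sub_cancel, Finset.prod_const] at h3
    rw [one_pow] at h3
    symm
    refine h3.trans ?_
    apply Finset.sum_congr rfl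
    intro U hU
    rw [Finset.mem_powerset] at hU
    rw [Finset.card_sdiff_of_subset hU]
  rw [h2, mul_one]

open Classical in
/-- Sampled inequality. -/
theorem crossing_sampled {V : Finset Pt} (hV : GenPos V) {E : Finset (Pt × Pt)}
    (hE : IsEdges V E) {p : ℝ} (hp0 : 0 ≤ p) (hp1 : p ≤ 1) :
    2 * (E.card : ℝ) * p ^ 2 ≤ 6 * (V.card : ℝ) * p + ((crPairs E).card : ℝ) * p ^ 4 := by
  set w : Finset Pt → ℝ := fun W => p ^ W.card * (1 - p) ^ (V.card - W.card) with hw
  have hw0 : ∀ W, 0 ≤ w W := fun W => mul_nonneg (pow_nonneg hp0 _) (pow_nonneg (by linarith) _)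
  -- the inequality on each W
  have hW : ∀ W ∈ V.powerset,
      2 * ((E.filter (fun e => ({e.1, e.2} : Finset Pt) ⊆ W)).card : ℝ) ≤ 6 * (W.card : ℝ) +
        (((crPairs E).filter (fun q => ({q.1.1, q.1.2, q.2.1, q.2.2} : Finset Pt) ⊆ W)).card : ℝ) := by
    intro W hW
    rw [Finset.mem_powerset] at hW
    have h1 : IsEdges W (E.filter (fun e => ({e.1, e.2} : Finset Pt) ⊆ W)) := by
      intro e he
      have he' := Finset.mem_filter.mp he
      have h2 := he'.2
      exact ⟨h2 (by simp), h2 (by simp), (hE e he'.1).2.2⟩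
    have h2 := crossing_linear (hV.mono hW) h1
    have h3 : (crPairs (E.filter (fun e => ({e.1, e.2} : Finset Pt) ⊆ W))).card ≤
        ((crPairs E).filter (fun q => ({q.1.1, q.1.2, q.2.1, q.2.2} : Finset Pt) ⊆ W)).card := by
      apply Finset.card_le_card
      intro q hq
      rw [mem_crPairs] at hq
      have a1 := Finset.mem_filter.mp hq.1
      have a2 := Finset.mem_filter.mp hq.2.1
      rw [Finset.mem_filter, mem_crPairs]
      refine ⟨⟨a1.1, a2.1, hq.2.2⟩, ?_⟩
      intro x hx
      simp only [Finset.mem_insert, Finset.mem_singleton] at hx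
      rcases hx with h | h | h | h
      · rw [h]; exact a1.2 (by simp)
      · rw [h]; exact a1.2 (by simp)
      · rw [h]; exact a2.2 (by simp)
      · rw [h]; exact a2.2 (by simp)
    have h4 : 2 * (E.filter (fun e => ({e.1, e.2} : Finset Pt) ⊆ W)).card ≤ 6 * W.card +
      ((crPairs E).filter (fun q => ({q.1.1, q.1.2, q.2.1, q.2.2} : Finset Pt) ⊆ W)).card := by omega
    exact_mod_cast h4
  have hsum : ∑ W ∈ V.powerset, w W *
      (2 * ((E.filter (fun e => ({e.1, e.2} : Finset Pt) ⊆ W)).card : ℝ)) ≤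
      ∑ W ∈ V.powerset, w W * (6 * (W.card : ℝ) +
        (((crPairs E).filter (fun q => ({q.1.1, q.1.2, q.2.1, q.2.2} : Finset Pt) ⊆ W)).card : ℝ)) :=
    Finset.sum_le_sum (fun W hW' => mul_le_mul_of_nonneg_left (hW W hW') (hw0 W))
  -- evaluate
  have ev1 : ∑ W ∈ V.powerset, w W *
      (2 * ((E.filter (fun e => ({e.1, e.2} : Finset Pt) ⊆ W)).card : ℝ))
      = 2 * (E.card : ℝ) * p ^ 2 := by
    have : ∀ W ∈ V.powerset, w W *
        (2 * ((E.filter (fun e => ({e.1, e.2} : Finset Pt) ⊆ W)).card : ℝ))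
        = ∑ e ∈ E, 2 * (if ({e.1, e.2} : Finset Pt) ⊆ W then w W else 0) := by
      intro W _
      rw [Finset.card_filter]
      push_cast
      rw [Finset.mul_sum, Finset.mul_sum]
      apply Finset.sum_congr rfl
      intro e _
      split_ifs <;> simp; ring
    rw [Finset.sum_congr rfl this, Finset.sum_comm]
    have h2 : ∀ e ∈ E, ∑ W ∈ V.powerset, 2 * (if ({e.1, e.2} : Finset Pt) ⊆ W then w W else 0)
        = 2 * p ^ 2 := by
      intro e he
      rw [← Finset.mul_sum]
      have hee := hE e he
      have hne : e.1 ≠ e.2 := fun h => by have := hee.2.2; rw [h] at this; exact lt_irrefl _ this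
      have := sum_powerset_weight V {e.1, e.2} (by
        intro x hx
        simp only [Finset.mem_insert, Finset.mem_singleton] at hx
        rcases hx with h | h
        · rw [h]; exact hee.1
        · rw [h]; exact hee.2.1) p
      rw [Finset.card_pair hne] at this
      have h5 : ∑ W ∈ V.powerset, (if ({e.1, e.2} : Finset Pt) ⊆ W then w W else 0) = p ^ 2 := this
      rw [h5]
    rw [Finset.sum_congr rfl h2, Finset.sum_const, nsmul_eq_mul]; ring
  have ev2 : ∑ W ∈ V.powerset, w W * (6 * (W.card : ℝ) +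
        (((crPairs E).filter (fun q => ({q.1.1, q.1.2, q.2.1, q.2.2} : Finset Pt) ⊆ W)).card : ℝ))
      = 6 * (V.card : ℝ) * p + ((crPairs E).card : ℝ) * p ^ 4 := by
    have : ∀ W ∈ V.powerset, w W * (6 * (W.card : ℝ) +
        (((crPairs E).filter (fun q => ({q.1.1, q.1.2, q.2.1, q.2.2} : Finset Pt) ⊆ W)).card : ℝ))
        = (∑ v ∈ V, 6 * (if ({v} : Finset Pt) ⊆ W then w W else 0)) +
          ∑ q ∈ crPairs E, (if ({q.1.1, q.1.2, q.2.1, q.2.2} : Finset Pt) ⊆ W then w W else 0) := by
      intro W hW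
      rw [Finset.mem_powerset] at hW
      rw [mul_add]
      congr 1
      · have : W.card = ∑ v ∈ V, (if v ∈ W then 1 else 0) := by
          rw [← Finset.card_filter]
          congr 1
          ext x; simp only [Finset.mem_filter]
          exact ⟨fun h => ⟨hW h, h⟩, fun h => h.2⟩
        rw [this]
        push_cast
        rw [Finset.mul_sum, Finset.mul_sum]
        apply Finset.sum_congr rfl
        intro v _
        simp only [Finset.singleton_subset_iff]
        split_ifs <;> simp; ring
      · rw [Finset.card_filter]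
        push_cast
        rw [Finset.mul_sum]
        apply Finset.sum_congr rfl
        intro q _
        split_ifs <;> simp
    rw [Finset.sum_congr rfl this, Finset.sum_add_distrib, Finset.sum_comm]
    congr 1
    · have h2 : ∀ v ∈ V, ∑ W ∈ V.powerset, 6 * (if ({v} : Finset Pt) ⊆ W then w W else 0)
          = 6 * p := by
        intro v hv
        rw [← Finset.mul_sum]
        have := sum_powerset_weight V {v} (by simpa using hv) p
        rw [Finset.card_singleton, pow_one] at this
        have h5 : ∑ W ∈ V.powerset, (if ({v} : Finset Pt) ⊆ W then w W else 0) = p := this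
        rw [h5]
      rw [Finset.sum_congr rfl h2, Finset.sum_const, nsmul_eq_mul]; ring
    · rw [Finset.sum_comm]
      have h2 : ∀ q ∈ crPairs E, ∑ W ∈ V.powerset,
          (if ({q.1.1, q.1.2, q.2.1, q.2.2} : Finset Pt) ⊆ W then w W else 0) = p ^ 4 := by
        intro q hq
        rw [mem_crPairs] at hq
        obtain ⟨q1, q2, q3⟩ := hq
        have e1 := hE _ q1
        have e2 := hE _ q2
        obtain ⟨c1, c2⟩ := q3
        have n12 : q.1.1 ≠ q.1.2 := fun h => by
          have := e1.2.2; rw [h] at this; exact lt_irrefl _ this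
        have n34 : q.2.1 ≠ q.2.2 := fun h => by
          have := e2.2.2; rw [h] at this; exact lt_irrefl _ this
        have n13 : q.1.1 ≠ q.2.1 := fun h => by
          rw [← h, orient_self_left] at c1; simp at c1
        have n14 : q.1.1 ≠ q.2.2 := fun h => by
          rw [← h, orient_self_left] at c1; simp at c1
        have n23 : q.1.2 ≠ q.2.1 := fun h => by
          rw [← h, orient_self_right] at c1; simp at c1
        have n24 : q.1.2 ≠ q.2.2 := fun h => by
          rw [← h, orient_self_right] at c1; simp at c1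
        have hcard : ({q.1.1, q.1.2, q.2.1, q.2.2} : Finset Pt).card = 4 := by
          rw [Finset.card_insert_of_notMem, Finset.card_insert_of_notMem,
            Finset.card_pair n34]
          · simp [n23, n24]
          · simp [n12, n13, n14]
        have := sum_powerset_weight V {q.1.1, q.1.2, q.2.1, q.2.2} (by
          intro x hx
          simp only [Finset.mem_insert, Finset.mem_singleton] at hx
          rcases hx with h | h | h | h
          · rw [h]; exact e1.1
          · rw [h]; exact e1.2.1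
          · rw [h]; exact e2.1
          · rw [h]; exact e2.2.1) p
        rw [hcard] at this
        exact this
      rw [Finset.sum_congr rfl h2, Finset.sum_const, nsmul_eq_mul]
  rw [ev1, ev2] at hsum
  exact hsum

/-- **Crossing lemma** for straight-line graphs (ordered crossing pairs). -/
theorem crossing_lemma {V : Finset Pt} (hV : GenPos V) {E : Finset (Pt × Pt)}
    (hE : IsEdges V E) (h4 : 4 * V.card ≤ E.card) :
    (E.card : ℝ) ^ 3 ≤ 32 * (V.card : ℝ) ^ 2 * ((crPairs E).card : ℝ) := by
  rcases Nat.eq_zero_or_pos E.card with h0 | hpos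
  · rw [h0]; simp; positivity
  have hEpos : (0 : ℝ) < E.card := by exact_mod_cast hpos
  rcases Nat.eq_zero_or_pos V.card with hV0 | hVpos
  · exfalso
    have hVe : V = ∅ := Finset.card_eq_zero.mp hV0
    obtain ⟨e, he⟩ := Finset.card_pos.mp hpos
    have := (hE e he).1
    rw [hVe] at this; simp at this
  have hVp : (0 : ℝ) < V.card := by exact_mod_cast hVpos
  have h4' : 4 * (V.card : ℝ) ≤ E.card := by exact_mod_cast h4
  set p : ℝ := 4 * V.card / E.card with hp
  have hp0 : 0 < p := by positivity
  have hp1 : p ≤ 1 := by rw [hp, div_le_one hEpos]; exact h4'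
  have h := crossing_sampled hV hE hp0.le hp1
  have hpE : p * E.card = 4 * V.card := by rw [hp]; field_simp
  -- divide by p
  have h1 : 2 * (E.card : ℝ) * p ≤ 6 * (V.card : ℝ) + ((crPairs E).card : ℝ) * p ^ 3 := by
    have : p * (2 * (E.card : ℝ) * p) ≤ p * (6 * (V.card : ℝ) + ((crPairs E).card : ℝ) * p ^ 3) := by
      nlinarith [h]
    exact le_of_mul_le_mul_left this hp0
  have h2 : 2 * (V.card : ℝ) ≤ ((crPairs E).card : ℝ) * p ^ 3 := by
    have : 2 * (E.card : ℝ) * p = 8 * V.card := by linarith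
    linarith
  have h3 : 2 * (V.card : ℝ) * (E.card : ℝ) ^ 3 ≤
      ((crPairs E).card : ℝ) * (64 * (V.card : ℝ) ^ 3) := by
    have h5 : ((crPairs E).card : ℝ) * p ^ 3 * (E.card : ℝ) ^ 3 =
        ((crPairs E).card : ℝ) * (64 * (V.card : ℝ) ^ 3) := by
      have : p ^ 3 * (E.card : ℝ) ^ 3 = (4 * (V.card : ℝ)) ^ 3 := by rw [← mul_pow, hpE]
      rw [mul_assoc, this]; ring
    rw [← h5]
    exact mul_le_mul_of_nonneg_right h2 (by positivity)
  have h6 : (2 * (V.card : ℝ)) * (E.card : ℝ) ^ 3 ≤
      (2 * (V.card : ℝ)) * (32 * (V.card : ℝ) ^ 2 * ((crPairs E).card : ℝ)) := by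
    linarith
  exact le_of_mul_le_mul_left h6 (by positivity)

end Crest.Agent.R051
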